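import Mathlib

/-!
Derivations of a field of characteristic `p` and `p`-dependence.
-/

set_option autoImplicit false

open Polynomial

namespace Crest.Agent.R9

variable (p : ℕ) [hp : Fact p.Prime] (L : Type*) [Field L] [CharP L p]

/-- the subfield of `p`-th powers -/
def pw : Subfield L := (frobenius L p).fieldRange

/-- absolute derivations -/
abbrev Der := Derivation ℤ L L

variable {p L}

lemma mem_pw {x : L} : x ∈ pw p L ↔ ∃ y : L, y ^ p = x := by
  simp [pw, RingHom.mem_fieldRange, frobenius_def]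

lemma pow_mem_pw (x : L) : x ^ p ∈ pw p L := mem_pw.2 ⟨x, rfl⟩

lemma der_pw (D : Der L) {x : L} (hx : x ∈ pw p L) : D x = 0 := by
  obtain ⟨y, rfl⟩ := mem_pw.1 hx
  rw [Derivation.leibniz_pow, nsmul_eq_mul, CharP.cast_eq_zero, zero_mul]

omit hp in
lemma der_mul (D : Der L) (a b : L) : D (a * b) = a * D b + b * D a := by
  rw [Derivation.leibniz]; simp

omit hp in
lemma der_inv (D : Der L) (a : L) : D a⁻¹ = -(a⁻¹ ^ 2 * D a) := by
  rw [Derivation.leibniz_inv]; simp

/-- the constants of a derivation -/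
def derKer (D : Der L) : Subfield L where
  carrier := {x | D x = 0}
  mul_mem' {a b} ha hb := by
    simp only [Set.mem_ofPred_eq] at *
    rw [der_mul, ha, hb]; simp
  one_mem' := by simp
  add_mem' {a b} ha hb := by
    simp only [Set.mem_ofPred_eq] at *
    rw [map_add, ha, hb]; simp
  zero_mem' := by simp
  neg_mem' {a} ha := by
    simp only [Set.mem_ofPred_eq] at *
    rw [map_neg, ha]; simp
  inv_mem' a ha := by
    simp only [Set.mem_ofPred_eq] at *
    rw [der_inv, ha]; simp

lemma mem_derKer {D : Der L} {x : L} : x ∈ derKer D ↔ D x = 0 := Iff.rfl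

/-- the subfield generated by `M` and `y` -/
def gen (M : Subfield L) (y : L) : Subfield L := (IntermediateField.adjoin M {y}).toSubfield

lemma mem_gen {M : Subfield L} {y u : L} : u ∈ gen M y ↔ u ∈ IntermediateField.adjoin M {y} :=
  Iff.rfl

lemma gen_le_iff {M N : Subfield L} {y : L} : gen M y ≤ N ↔ M ≤ N ∧ y ∈ N := by
  rw [gen, IntermediateField.adjoin_toSubfield, Subfield.closure_le, Set.union_subset_iff]
  simp only [Set.singleton_subset_iff, SetLike.mem_coe, and_congr_left_iff]
  intro _
  constructor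
  · intro h x hx
    exact h ⟨⟨x, hx⟩, rfl⟩
  · rintro h _ ⟨x, rfl⟩
    exact h x.2

lemma le_gen (M : Subfield L) (y : L) : M ≤ gen M y := (gen_le_iff.1 le_rfl).1

lemma self_mem_gen (M : Subfield L) (y : L) : y ∈ gen M y := (gen_le_iff.1 le_rfl).2

lemma isIntegral_of_pw_le {M : Subfield L} (hM : pw p L ≤ M) (y : L) : IsIntegral M y :=
  ⟨X ^ p - C ⟨y ^ p, hM (pow_mem_pw y)⟩, monic_X_pow_sub_C _ hp.out.ne_zero, by
    simp [Subfield.algebraMap_ofSubfield]⟩

lemma minpoly_of_notMem {M : Subfield L} (hM : pw p L ≤ M) {y : L} (hy : y ∉ M) :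
    minpoly M y = X ^ p - C ⟨y ^ p, hM (pow_mem_pw y)⟩ := by
  symm
  apply minpoly.eq_of_irreducible_of_monic
  · apply X_pow_sub_C_irreducible_of_prime hp.out
    intro b hb
    apply hy
    have h1 : (b : L) ^ p = y ^ p := by simpa using congrArg Subtype.val hb
    have : (b : L) = y := frobenius_inj L p h1
    rw [← this]; exact b.2
  · simp only [map_sub, map_pow, aeval_X, aeval_C]; exact sub_self _
  · exact monic_X_pow_sub_C _ hp.out.ne_zero

lemma finrank_adjoin_le {M : Subfield L} (hM : pw p L ≤ M) (z : L) :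
    Module.finrank M (IntermediateField.adjoin M {z}) ≤ p := by
  rw [IntermediateField.adjoin.finrank (isIntegral_of_pw_le hM z)]
  have h := minpoly.min M z (p := X ^ p - C ⟨z ^ p, hM (pow_mem_pw z)⟩)
    (monic_X_pow_sub_C _ hp.out.ne_zero)
    (by simp only [map_sub, map_pow, aeval_X, aeval_C]; exact sub_self _)
  have := natDegree_le_natDegree h
  rwa [natDegree_X_pow_sub_C] at this

lemma gen_exchange {M : Subfield L} (hM : pw p L ≤ M) {y z : L} (hy : y ∉ M) (h : y ∈ gen M z) :
    z ∈ gen M y := by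
  have hle : IntermediateField.adjoin M {y} ≤ IntermediateField.adjoin M {z} := by
    rw [IntermediateField.adjoin_simple_le_iff]; exact h
  have := IntermediateField.adjoin.finiteDimensional (isIntegral_of_pw_le hM z)
  have e := IntermediateField.eq_of_le_of_finrank_le hle (by
    rw [IntermediateField.adjoin.finrank (isIntegral_of_pw_le hM y), minpoly_of_notMem hM hy,
      natDegree_X_pow_sub_C]
    exact finrank_adjoin_le hM z)
  rw [mem_gen, e]
  exact IntermediateField.mem_adjoin_simple_self M z

lemma exists_aeval_of_mem_gen {M : Subfield L} (hM : pw p L ≤ M) {y u : L} (h : u ∈ gen M y) :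
    ∃ f : M[X], aeval y f = u := by
  rw [mem_gen, ← IntermediateField.mem_toSubalgebra,
    IntermediateField.adjoin_simple_toSubalgebra_of_isAlgebraic
      (isIntegral_of_pw_le hM y).isAlgebraic, Algebra.adjoin_singleton_eq_range_aeval] at h
  exact h

/-- existence of derivations -/
theorem exists_der {F : Subfield L} (hF : pw p L ≤ F) {y : L} (hy : y ∉ F) :
    ∃ D : Der L, (∀ z ∈ F, D z = 0) ∧ D y = 1 := by
  obtain ⟨M, hFM, hmax⟩ := zorn_le_nonempty₀ {N : Subfield L | y ∉ N} (by
    intro c hc hchain N hN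
    refine ⟨sSup c, ?_, fun z hz => le_sSup hz⟩
    intro hy
    rw [Subfield.mem_sSup_of_directedOn ⟨N, hN⟩ hchain.directedOn] at hy
    obtain ⟨s, hs, hys⟩ := hy
    exact hc hs hys) F hy
  have hM : pw p L ≤ M := hF.trans hFM
  have hyM : y ∉ M := hmax.prop
  have hall : ∀ z, z ∈ gen M y := by
    intro z
    by_cases hz : y ∈ gen M z
    · exact gen_exchange hM hyM hz
    · exact le_gen M y (hmax.le_of_ge hz (le_gen M z) (self_mem_gen M z))
  have hsurj : Function.Surjective (aeval y : M[X] →ₐ[M] L) := fun u =>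
    exists_aeval_of_mem_gen hM (hall u)
  have hd : ∀ f : M[X], aeval y f = 0 → aeval y (derivative' (R := M) f) = 0 := by
    intro f hf
    obtain ⟨g, rfl⟩ := minpoly.dvd M y hf
    change aeval y (derivative _) = 0
    rw [derivative_mul, map_add, map_mul, map_mul, minpoly.aeval, zero_mul, add_zero,
      minpoly_of_notMem hM hyM]
    simp [derivative_X_pow]
  let D := Derivation.liftOfSurjective hsurj hd
  refine ⟨D.restrictScalars ℤ, fun z hz => ?_, ?_⟩
  · exact D.map_algebraMap ⟨z, hFM hz⟩
  · have := Derivation.liftOfSurjective_apply hsurj hd X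
    simp only [aeval_X] at this
    change D y = 1
    rw [this]
    change aeval y (derivative X) = 1
    simp

lemma mem_of_forall_der {F : Subfield L} (hF : pw p L ≤ F) {u : L}
    (h : ∀ D : Der L, (∀ z ∈ F, D z = 0) → D u = 0) : u ∈ F := by
  by_contra hu
  obtain ⟨D, h1, h2⟩ := exists_der hF hu
  simpa [h2] using h D h1

lemma der_gen {D : Der L} {x : L} (hx : D x = 0) {u : L} (hu : u ∈ gen (pw p L) x) : D u = 0 :=
  (gen_le_iff.2 ⟨fun _ hz => der_pw D hz, hx⟩ : gen (pw p L) x ≤ derKer D) hu

lemma mem_gen_of_forall_der {x u : L} (h : ∀ D : Der L, D x = 0 → D u = 0) :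
    u ∈ gen (pw p L) x :=
  mem_of_forall_der (le_gen _ _) fun D hD => h D (hD x (self_mem_gen _ _))

/-- a derivation with `D x = x` preserves `L^p(x)` -/
lemma der_mem_gen {D : Der L} {x : L} (hx : D x = x) {u : L} (hu : u ∈ gen (pw p L) x) :
    D u ∈ gen (pw p L) x := by
  let N : Subfield L :=
    { carrier := {u | u ∈ gen (pw p L) x ∧ D u ∈ gen (pw p L) x}
      mul_mem' := fun {a b} ha hb => ⟨mul_mem ha.1 hb.1, by
        rw [der_mul]; exact add_mem (mul_mem ha.1 hb.2) (mul_mem hb.1 ha.2)⟩
      one_mem' := ⟨one_mem _, by simp⟩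
      add_mem' := fun {a b} ha hb => ⟨add_mem ha.1 hb.1, by
        rw [map_add]; exact add_mem ha.2 hb.2⟩
      zero_mem' := ⟨zero_mem _, by simp⟩
      neg_mem' := fun {a} ha => ⟨neg_mem ha.1, by rw [map_neg]; exact neg_mem ha.2⟩
      inv_mem' := fun a ha => ⟨inv_mem ha.1, by
        rw [der_inv]; exact neg_mem (mul_mem (pow_mem (inv_mem ha.1) 2) ha.2)⟩ }
  have : gen (pw p L) x ≤ N := gen_le_iff.2
    ⟨fun z hz => ⟨le_gen _ _ hz, by rw [der_pw D hz]; exact zero_mem _⟩,
      self_mem_gen _ _, by rw [hx]; exact self_mem_gen _ _⟩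
  exact (this hu).2

/-- constants of `D` (with `D x = x ≠ 0`) in `L^p(x)` are `p`-th powers -/
lemma mem_pw_of_der_eq_zero {D : Der L} {x : L} (hx0 : x ≠ 0) (hx : D x = x) {u : L}
    (hu : u ∈ gen (pw p L) x) (h0 : D u = 0) : u ∈ pw p L := by
  apply mem_of_forall_der le_rfl
  intro D' _
  have : (D' - (D' x / x) • D) u = 0 := der_gen (by simp [hx, hx0]) hu
  simpa [h0] using this

/-- eigenvalues of `x d/dx` on `L^p(x)` lie in the prime field -/
lemma eigen_nat {D : Der L} {x : L} (hx : D x = x) {u κ : L}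
    (hu : u ∈ gen (pw p L) x) (hu0 : u ≠ 0) (hκ : κ ∈ pw p L) (h : D u = κ * u) :
    ∃ i : ℕ, κ = i := by
  obtain ⟨f₀, hf₀⟩ := exists_aeval_of_mem_gen le_rfl hu
  have hint := isIntegral_of_pw_le (le_refl (pw p L)) x
  have hmon := minpoly.monic hint
  set f := f₀ %ₘ minpoly (pw p L) x with hf
  have hfu : aeval x f = u := by
    rw [hf, aeval_modByMonic_eq_self_of_root (minpoly.aeval _ _), hf₀]
  have hdeg : f.degree < (minpoly (pw p L) x).degree := degree_modByMonic_lt _ hmon
  have hf0 : f ≠ 0 := by rintro e; rw [e] at hfu; exact hu0 (by simpa using hfu.symm)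
  let D' : Derivation (pw p L) L L := Derivation.mk'
    { toFun := D
      map_add' := map_add D
      map_smul' := fun a b => by
        change D ((a : L) * b) = (a : L) * D b
        rw [der_mul, der_pw D a.2]; simp } (fun a b => D.leibniz a b)
  have hD : D u = aeval x (derivative f * X) := by
    have := D'.map_aeval f x
    rw [hfu] at this
    change D u = _ • D x at this
    rw [this, hx]; simp
  let g : (pw p L)[X] := derivative f * X - C ⟨κ, hκ⟩ * f
  have hg : aeval x g = 0 := by
    simp only [g, map_sub, ← hD, map_mul (aeval x) (C _), aeval_C, hfu, h]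
    exact sub_self _
  have hgdeg : g.degree < (minpoly (pw p L) x).degree := by
    refine lt_of_le_of_lt ?_ hdeg
    refine (degree_sub_le _ _).trans (max_le ?_ ?_)
    · by_cases hd : derivative f = 0
      · simp [hd]
      · rw [degree_mul_X]
        have h1 := degree_derivative_lt hf0
        rw [degree_eq_natDegree hd, degree_eq_natDegree hf0] at *
        exact_mod_cast h1
    · exact (degree_smul_le (⟨κ, hκ⟩ : pw p L) f).trans_eq' (by rw [smul_eq_C_mul])
  have hg0 : g = 0 := by
    by_contra hne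
    exact absurd (minpoly.degree_le_of_ne_zero _ _ hne hg) (not_le.2 hgdeg)
  refine ⟨f.natDegree, ?_⟩
  have hc := congrArg (fun q => q.coeff f.natDegree) hg0
  simp only [g, coeff_sub, coeff_C_mul, coeff_zero] at hc
  have hc2 : (derivative f * X).coeff f.natDegree = f.coeff f.natDegree * f.natDegree := by
    cases hn : f.natDegree with
    | zero => simp
    | succ n => rw [coeff_mul_X, coeff_derivative]; simp
  rw [hc2] at hc
  have hl : f.coeff f.natDegree ≠ 0 := by simpa using hf0
  have : ((f.natDegree : pw p L) - ⟨κ, hκ⟩) * f.coeff f.natDegree = 0 := by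
    linear_combination hc
  rcases mul_eq_zero.1 this with h1 | h1
  · have := congrArg Subtype.val (sub_eq_zero.1 h1)
    simpa using this.symm
  · exact absurd h1 hl

end Crest.Agent.R9
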