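import Mathlib
import Crest.Prelude.Def_MilnorK
import Crest.Agent.R9.Der

/-!
Classes in `Lˣ / (Lˣ)^p`, logarithmic derivatives, and the Bogomolov–Tschinkel configuration in
characteristic `p`.
-/

set_option autoImplicit false

open Crest.NumberTheoryR.MilnorK

namespace Crest.Agent.R9

/-- type synonym for `KOne` carrying a single additive group instance -/
def KK (L : Type*) [Field L] (p : ℕ) : Type _ := KOne L p

instance (L : Type*) [Field L] (p : ℕ) : AddCommGroup (KK L p) :=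
  QuotientAddGroup.Quotient.addCommGroup (pMultiples L p)

instance (L : Type*) [Field L] (p : ℕ) : Module (ZMod p) (KK L p) := KOne.instModule L p

/-- the class of a unit -/
def cl (L : Type*) [Field L] (p : ℕ) (u : Lˣ) : KK L p := cls L p u

/-- the Steinberg subspace -/
def stb (L : Type*) [Field L] (p : ℕ) :
    Submodule (ZMod p) (TensorProduct (ZMod p) (KK L p) (KK L p)) := steinberg L p

lemma stb_eq (L : Type*) [Field L] (p : ℕ) : stb L p = Submodule.span (ZMod p)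
    {t | ∃ (f : L) (hf : f ≠ 0) (hf1 : 1 - f ≠ 0),
      t = TensorProduct.tmul (ZMod p) (cl L p (Units.mk0 f hf)) (cl L p (Units.mk0 (1 - f) hf1))} :=
  rfl

lemma cl_eq_zero_iff {L : Type*} [Field L] {p : ℕ} (u : Lˣ) :
    cl L p u = 0 ↔ Additive.ofMul u ∈ pMultiples L p := QuotientAddGroup.eq_zero_iff _

variable (p : ℕ) [hp : Fact p.Prime] {L : Type*} [Field L] [CharP L p]

open Classical in
/-- the class of a field element (zero goes to zero) -/
noncomputable def c0 (x : L) : KK L p := if h : x = 0 then 0 else cl L p (Units.mk0 x h)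

variable {p}

omit hp [CharP L p] in
lemma c0_of_ne {x : L} (h : x ≠ 0) : c0 p x = cl L p (Units.mk0 x h) := by simp [c0, h]

omit hp [CharP L p] in
lemma c0_units (u : Lˣ) : c0 p (u : L) = cl L p u := by
  rw [c0_of_ne u.ne_zero]; simp

omit hp [CharP L p] in
lemma c0_mul {x y : L} (hx : x ≠ 0) (hy : y ≠ 0) : c0 p (x * y) = c0 p x + c0 p y := by
  rw [c0_of_ne hx, c0_of_ne hy, c0_of_ne (mul_ne_zero hx hy), Units.mk0_mul]
  rfl

lemma c0_eq_zero_iff {x : L} (hx : x ≠ 0) : c0 p x = 0 ↔ x ∈ pw p L := by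
  rw [c0_of_ne hx, cl_eq_zero_iff, pMultiples, AddMonoidHom.mem_range, mem_pw]
  constructor
  · rintro ⟨u, hu⟩
    refine ⟨(Additive.toMul u : Lˣ), ?_⟩
    have := congrArg (fun v : Additive Lˣ => ((Additive.toMul v : Lˣ) : L)) hu
    simpa using this
  · rintro ⟨y, rfl⟩
    have hy : y ≠ 0 := by rintro rfl; exact hx (zero_pow hp.out.ne_zero)
    refine ⟨Additive.ofMul (Units.mk0 y hy), ?_⟩
    apply Additive.toMul.injective
    ext
    simp

lemma c0_one : c0 p (1 : L) = 0 := (c0_eq_zero_iff one_ne_zero).2 (one_mem _)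

lemma c0_neg (x : L) : c0 p (-x) = c0 p x := by
  by_cases hx : x = 0
  · simp [hx]
  rw [← neg_one_mul, c0_mul (by simp) hx, (c0_eq_zero_iff (by simp)).2 (neg_mem (one_mem _)),
    zero_add]

omit hp [CharP L p] in
lemma c0_div {x y : L} (hx : x ≠ 0) (hy : y ≠ 0) : c0 p (x / y) = c0 p x - c0 p y := by
  rw [eq_sub_iff_add_eq, ← c0_mul (div_ne_zero hx hy) hy, div_mul_cancel₀ _ hy]

lemma c0_pow {x : L} (hx : x ≠ 0) (n : ℕ) : c0 p (x ^ n) = (n : ZMod p) • c0 p x := by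
  induction n with
  | zero => simp [c0_one]
  | succ n ih => rw [pow_succ, c0_mul (pow_ne_zero _ hx) hx, ih, Nat.cast_succ, add_smul, one_smul]

omit hp [CharP L p] in
lemma c0_surj (A : KK L p) : ∃ x : L, x ≠ 0 ∧ c0 p x = A := by
  obtain ⟨u, rfl⟩ := QuotientAddGroup.mk_surjective A
  exact ⟨(Additive.toMul u : Lˣ), Units.ne_zero _, c0_units _⟩

lemma c0_eq_iff {x y : L} (hx : x ≠ 0) (hy : y ≠ 0) :
    c0 p x = c0 p y ↔ ∃ a ∈ pw p L, a ≠ 0 ∧ x = a * y := by
  rw [← sub_eq_zero, ← c0_div hx hy, c0_eq_zero_iff (div_ne_zero hx hy)]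
  constructor
  · intro h
    exact ⟨_, h, div_ne_zero hx hy, by field_simp⟩
  · rintro ⟨a, ha, -, rfl⟩
    rwa [mul_div_cancel_right₀ _ hy]

lemma c0_pw_mul {a x : L} (ha : a ∈ pw p L) (ha0 : a ≠ 0) (hx : x ≠ 0) :
    c0 p (a * x) = c0 p x := by
  rw [c0_mul ha0 hx, (c0_eq_zero_iff ha0).2 ha, zero_add]

variable (p) in
/-- logarithmic derivative on classes -/
noncomputable def dl (D : Der L) : KK L p →+ L :=
  QuotientAddGroup.lift (pMultiples L p)
    (AddMonoidHom.mk' (fun u : Additive Lˣ => D (Additive.toMul u : Lˣ) / (Additive.toMul u : Lˣ))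
      (fun u v => by
        simp only [toMul_add, Units.val_mul, der_mul]
        field_simp
        ring))
    (by
      rintro _ ⟨u, rfl⟩
      rw [AddMonoidHom.mem_ker, nsmulAddMonoidHom_apply, map_nsmul, nsmul_eq_mul,
        CharP.cast_eq_zero, zero_mul])

omit hp in
lemma dl_c0 (D : Der L) {x : L} (hx : x ≠ 0) : dl p D (c0 p x) = D x / x := by
  rw [c0_of_ne hx]; rfl

lemma dl_smul (D : Der L) (n : ℕ) (A : KK L p) :
    dl p D ((n : ZMod p) • A) = n * dl p D A := by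
  rw [Nat.cast_smul_eq_nsmul, map_nsmul, nsmul_eq_mul]

/-- `dlog A ∧ dlog B = 0` -/
def Wd (A B : KK L p) : Prop :=
  ∀ D₁ D₂ : Der L, dl p D₁ A * dl p D₂ B = dl p D₂ A * dl p D₁ B

lemma wd_of_steinberg {A B : KK L p}
    (h : TensorProduct.tmul (ZMod p) A B ∈ stb L p) : Wd A B := by
  intro D₁ D₂
  let _ := ZMod.algebra L p
  let l₁ := (dl p D₁).toZModLinearMap p
  let l₂ := (dl p D₂).toZModLinearMap p
  let W := (LinearMap.mul' (ZMod p) L).comp (TensorProduct.map l₁ l₂) -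
    (LinearMap.mul' (ZMod p) L).comp (TensorProduct.map l₂ l₁)
  have hW : ∀ A B, W (TensorProduct.tmul (ZMod p) A B) =
      dl p D₁ A * dl p D₂ B - dl p D₂ A * dl p D₁ B := by
    intro A B
    simp [W, l₁, l₂]
  have : stb L p ≤ LinearMap.ker W := by
    rw [stb_eq, Submodule.span_le]
    rintro _ ⟨f, hf, hf1, rfl⟩
    rw [SetLike.mem_coe, LinearMap.mem_ker, hW, ← c0_of_ne, ← c0_of_ne, dl_c0 _ hf, dl_c0 _ hf,
      dl_c0 _ hf1, dl_c0 _ hf1]
    simp only [map_sub, Derivation.map_one_eq_zero]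
    ring
  have h2 := this h
  rw [LinearMap.mem_ker, hW] at h2
  exact sub_eq_zero.1 h2

/-- `B` lies on the line through the unit class and `A` (and is not one of the two) -/
def Ln (A B : KK L p) : Prop := ∃ a : L, a ≠ 0 ∧ a + 1 ≠ 0 ∧ c0 p a = A ∧ c0 p (a + 1) = B

lemma Ln.mem_steinberg {A B : KK L p} (h : Ln A B) :
    TensorProduct.tmul (ZMod p) A B ∈ stb L p := by
  obtain ⟨a, h0, h1, rfl, rfl⟩ := h
  rw [stb_eq]
  apply Submodule.subset_span
  refine ⟨-a, by simpa using h0, by rwa [sub_neg_eq_add, add_comm], ?_⟩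
  rw [← c0_of_ne, ← c0_of_ne, c0_neg, sub_neg_eq_add, add_comm]

lemma exists_der_self {F : Subfield L} (hF : pw p L ≤ F) {x : L} (hx : x ∉ F) :
    ∃ D : Der L, (∀ z ∈ F, D z = 0) ∧ D x = x := by
  obtain ⟨D, h1, h2⟩ := exists_der hF hx
  exact ⟨x • D, fun z hz => by simp [h1 z hz], by simp [h2]⟩

lemma exists_dl_eq_one {A : KK L p} (hA : A ≠ 0) : ∃ D : Der L, dl p D A = 1 := by
  obtain ⟨x, hx, rfl⟩ := c0_surj A
  obtain ⟨D, -, h⟩ := exists_der_self le_rfl (mt (c0_eq_zero_iff hx).2 hA)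
  exact ⟨D, by rw [dl_c0 _ hx, h, div_self hx]⟩

lemma natCast_ne_zero_of {n : ℕ} (h : (n : ZMod p) ≠ 0) : (n : L) ≠ 0 := by
  rw [Ne, CharP.cast_eq_zero_iff L p]
  rwa [Ne, ZMod.natCast_eq_zero_iff] at h

lemma Ln.unique {X P : KK L p} (hX : X ≠ 0) {c d : ZMod p} (hc : c ≠ 0) (hd : d ≠ 0)
    (h1 : Ln (c • X) (c • P)) (h2 : Ln (d • X) (d • P)) : c = d := by
  obtain ⟨D, hD⟩ := exists_dl_eq_one hX
  have key : ∀ (c : ZMod p) (a : L), c ≠ 0 → a ≠ 0 → a + 1 ≠ 0 → c0 p a = c • X →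
      c0 p (a + 1) = c • P → dl p D P = a / (a + 1) := by
    intro c a hc h0 h1 e1 e2
    obtain ⟨n, rfl⟩ := ZMod.natCast_zmod_surjective c
    have f1 := congrArg (dl p D) e1
    have f2 := congrArg (dl p D) e2
    rw [dl_smul, dl_c0 _ h0, hD, mul_one, div_eq_iff h0] at f1
    rw [dl_smul, dl_c0 _ h1, map_add, Derivation.map_one_eq_zero, add_zero, f1] at f2
    apply mul_left_cancel₀ (natCast_ne_zero_of (L := L) hc)
    rw [← f2]; ring
  obtain ⟨a, a0, a1, ha, ha'⟩ := h1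
  obtain ⟨b, b0, b1, hb, hb'⟩ := h2
  have e := (key c a hc a0 a1 ha ha').symm.trans (key d b hd b0 b1 hb hb')
  have hab : a = b := by
    rw [div_eq_div_iff a1 b1] at e
    linear_combination e
  subst hab
  have : (c - d) • X = 0 := by rw [sub_smul, ← ha, ← hb, sub_self]
  rcases smul_eq_zero.1 this with h | h
  · exact sub_eq_zero.1 h
  · exact absurd h hX

lemma Ln.ne_smul {A B : KK L p} (h : Ln A B) (hA : A ≠ 0) (c : ZMod p) : B ≠ c • A := by
  intro e
  obtain ⟨D, hD⟩ := exists_dl_eq_one hA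
  obtain ⟨a, a0, a1, rfl, rfl⟩ := h
  obtain ⟨n, rfl⟩ := ZMod.natCast_zmod_surjective c
  have f := congrArg (dl p D) e
  rw [dl_smul, hD, dl_c0 _ a1, map_add, Derivation.map_one_eq_zero, add_zero, mul_one] at f
  rw [dl_c0 _ a0, div_eq_one_iff_eq a0] at hD
  rw [hD, div_eq_iff a1] at f
  have g := congrArg D f
  rw [der_mul, map_add, Derivation.map_one_eq_zero, Derivation.map_natCast, hD] at g
  have hn : (n : L) = 1 := by
    apply mul_right_cancel₀ a0
    linear_combination -g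
  rw [hn] at f
  exact one_ne_zero (α := L) (by linear_combination -f)

lemma Wd.mem_gen {x r : L} (hx : x ∉ pw p L) (hr : r ≠ 0) (h : Wd (c0 p x) (c0 p r)) :
    r ∈ gen (pw p L) x := by
  have hx0 : x ≠ 0 := by rintro rfl; exact hx (zero_mem _)
  obtain ⟨D, -, hD⟩ := exists_der_self le_rfl hx
  apply mem_gen_of_forall_der
  intro D' hD'
  have := h D D'
  rw [dl_c0 _ hx0, dl_c0 _ hx0, dl_c0 _ hr, hD, hD', div_self hx0] at this
  simpa [hr] using this

lemma der_pow (D : Der L) {x κ : L} (h : D x = κ * x) (n : ℕ) : D (x ^ n) = n * κ * x ^ n := by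
  induction n with
  | zero => simp
  | succ n ih => rw [pow_succ, der_mul, ih, h]; push_cast; ring

lemma c0_eq_of_der {D : Der L} {x : L} (hx0 : x ≠ 0) (hx : D x = x) {u v κ : L}
    (hu : u ∈ gen (pw p L) x) (hv : v ∈ gen (pw p L) x) (hu0 : u ≠ 0) (hv0 : v ≠ 0)
    (h1 : D u = κ * u) (h2 : D v = κ * v) : c0 p u = c0 p v := by
  rw [← sub_eq_zero, ← c0_div hu0 hv0, c0_eq_zero_iff (div_ne_zero hu0 hv0)]
  apply mem_pw_of_der_eq_zero hx0 hx (div_mem hu hv)
  rw [div_eq_mul_inv, der_mul, der_inv, h1, h2]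
  field_simp
  ring

lemma der_logder_ne_zero {D : Der L} {x r : L} (hx0 : x ≠ 0) (hx : D x = x)
    (hr : r ∈ gen (pw p L) x) (hr0 : r ≠ 0) (hn : ∀ c : ZMod p, c0 p r ≠ c • c0 p x) :
    D (D r / r) ≠ 0 := by
  intro h
  have ha : D r / r ∈ pw p L := mem_pw_of_der_eq_zero hx0 hx (div_mem (der_mem_gen hx hr) hr) h
  have h1 : D r = D r / r * r := by field_simp
  obtain ⟨i, hi⟩ := eigen_nat hx hr hr0 ha h1
  apply hn i
  rw [← c0_pow hx0]
  refine c0_eq_of_der hx0 hx hr (pow_mem (self_mem_gen _ _) i) hr0 (pow_ne_zero _ hx0) h1 ?_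
  rw [der_pow D (κ := 1) (by rw [hx, one_mul]), hi, mul_one]

lemma ln_of_riccati {D : Der L} {x r a : L} (hx0 : x ≠ 0) (hx : D x = x)
    (hr : r ∈ gen (pw p L) x) (hr0 : r ≠ 0) (ha : D r = a * r) (a0 : a ≠ 0) (a1 : a - 1 ≠ 0)
    {i : ℕ} (h : D a = i * (a * (a - 1))) :
    Ln (-(i : ZMod p) • c0 p x) (-(i : ZMod p) • c0 p r) := by
  have hag : a ∈ gen (pw p L) x := by
    have : a = D r / r := by rw [ha]; field_simp
    rw [this]; exact div_mem (der_mem_gen hx hr) hr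
  have hxg := self_mem_gen (pw p L) x
  -- t = a / (1 - a), t + 1 = 1 / (1 - a)
  have e1 : D (a - 1)⁻¹ = -(i * a) * (a - 1)⁻¹ := by
    rw [der_inv, map_sub, Derivation.map_one_eq_zero, sub_zero, h]
    field_simp
  have ht1 : -(a * (a - 1)⁻¹) + 1 = -(a - 1)⁻¹ := by field_simp; ring
  refine ⟨-(a * (a - 1)⁻¹), by simp [a0, a1], by rw [ht1]; simp [a1], ?_, ?_⟩
  · rw [c0_neg, neg_smul, ← c0_pow hx0, ← zero_sub, ← c0_one, ← c0_div one_ne_zero
      (pow_ne_zero _ hx0), one_div]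
    refine c0_eq_of_der (κ := -i) hx0 hx (mul_mem hag (inv_mem (sub_mem hag (one_mem _))))
      (inv_mem (pow_mem hxg _)) (by simp [a0, a1]) (by simp [hx0]) ?_ ?_
    · rw [der_mul, e1, h]; field_simp; ring
    · rw [der_inv, der_pow D (κ := 1) (by rw [hx, one_mul])]; field_simp
  · rw [ht1, c0_neg, neg_smul, ← c0_pow hr0, ← zero_sub, ← c0_one, ← c0_div one_ne_zero
      (pow_ne_zero _ hr0), one_div]
    refine c0_eq_of_der (κ := -(i * a)) hx0 hx (inv_mem (sub_mem hag (one_mem _)))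
      (inv_mem (pow_mem hr _)) (by simp [a1]) (by simp [hr0]) e1 ?_
    rw [der_inv, der_pow D ha]; field_simp

/-- the Bogomolov–Tschinkel configuration in characteristic `p` -/
theorem bt_config {X Y R Q W : KK L p} {x y : L} (hX : c0 p x = X) (hY : c0 p y = Y)
    (hx : x ∉ pw p L) (hy : y ∉ gen (pw p L) x)
    (h1 : Wd X R) (h2 : Wd Y Q) (h3 : Wd (X - Y) (W - Y)) (h4 : Wd (R - Q) (W - Q))
    (n1 : ∀ c : ZMod p, R ≠ c • X) (n2 : ∀ c : ZMod p, Q ≠ c • Y) :
    ∃ c : ZMod p, c ≠ 0 ∧ Ln (c • X) (c • R) ∧ Ln (c • Y) (c • Q) := by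
  subst hX hY
  obtain ⟨r, r0, rfl⟩ := c0_surj R
  obtain ⟨q, q0, rfl⟩ := c0_surj Q
  obtain ⟨w, w0, rfl⟩ := c0_surj W
  have x0 : x ≠ 0 := by rintro rfl; exact hx (zero_mem _)
  have y0 : y ≠ 0 := by rintro rfl; exact hy (zero_mem _)
  have hy' : y ∉ pw p L := fun h => hy (le_gen _ _ h)
  have hx' : x ∉ gen (pw p L) y := fun h => hy (gen_exchange le_rfl hx h)
  obtain ⟨Dx, Dxy, Dxx⟩ := exists_der_self (le_gen (pw p L) y) hx'
  obtain ⟨Dy, Dyx, Dyy⟩ := exists_der_self (le_gen (pw p L) x) hy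
  have hr := h1.mem_gen hx r0
  have hq := h2.mem_gen hy' q0
  have hxy : x / y ∉ pw p L := by
    intro h
    apply hx'
    have : x = x / y * y := by field_simp
    rw [this]
    exact mul_mem (le_gen _ _ h) (self_mem_gen _ _)
  rw [← c0_div x0 y0, ← c0_div w0 y0] at h3
  have hw := h3.mem_gen hxy (div_ne_zero w0 y0)
  have Dxy0 : Dx y = 0 := Dxy y (self_mem_gen _ _)
  have Dyx0 : Dy x = 0 := Dyx x (self_mem_gen _ _)
  set a := Dx r / r with ha
  set b := Dy q / q with hb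
  set s := Dx w / w with hs
  have hag : a ∈ gen (pw p L) x := div_mem (der_mem_gen Dxx hr) hr
  have hbg : b ∈ gen (pw p L) y := div_mem (der_mem_gen Dyy hq) hq
  have hDxq : Dx (x / y) = x / y := by
    rw [div_eq_mul_inv, der_mul, der_inv, Dxy0, Dxx]; ring
  have hsum : (Dx + Dy) (x / y) = 0 := by
    rw [Derivation.add_apply, hDxq, div_eq_mul_inv, der_mul, der_inv, Dyx0, Dyy]
    field_simp; ring
  have hsg : s ∈ gen (pw p L) (x / y) := by
    have : s = Dx (w / y) / (w / y) := by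
      rw [hs, div_eq_mul_inv w y, der_mul, der_inv, Dxy0]; field_simp; ring
    rw [this]
    exact div_mem (der_mem_gen hDxq hw) hw
  have hs0 : (Dx + Dy) s = 0 := der_gen hsum hsg
  have ht : Dy w / w = 1 - s := by
    have := der_gen hsum hw
    rw [Derivation.add_apply, div_eq_mul_inv w y, der_mul, der_mul, der_inv, der_inv, Dxy0,
      Dyy] at this
    rw [hs]
    field_simp
    apply mul_left_cancel₀ (inv_ne_zero y0)
    have hy1 : y * y⁻¹ = 1 := mul_inv_cancel₀ y0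
    linear_combination this + w * y⁻¹ * hy1
  have hrel : s * (b - a) = a * (b - 1) := by
    have := h4 Dx Dy
    simp only [map_sub, dl_c0 _ r0, dl_c0 _ q0, dl_c0 _ w0, Dxy q hq, Dyx r hr, ← ha, ← hb, ← hs,
      ht, zero_div] at this
    linear_combination this
  have hDa : Dx a ≠ 0 := der_logder_ne_zero x0 Dxx hr r0 n1
  have hDb : Dy b ≠ 0 := der_logder_ne_zero y0 Dyy hq q0 n2
  have a0 : a ≠ 0 := by intro e; rw [e] at hDa; simp at hDa
  have b0 : b ≠ 0 := by intro e; rw [e] at hDb; simp at hDb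
  have a1 : a - 1 ≠ 0 := by intro e; rw [sub_eq_zero.1 e] at hDa; simp at hDa
  have b1 : b - 1 ≠ 0 := by intro e; rw [sub_eq_zero.1 e] at hDb; simp at hDb
  have hrel2 : a * (a - 1) * Dy b = b * (b - 1) * Dx a := by
    have := congrArg (Dx + Dy) hrel
    rw [der_mul, der_mul, hs0] at this
    simp only [map_sub, Derivation.add_apply, Dxy b hbg, Dyx a hag,
      Derivation.map_one_eq_zero] at this
    linear_combination (b - a) * this - (Dy b - Dx a) * hrel
  set κ := Dx a / (a * (a - 1)) with hκ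
  have hκ' : κ = Dy b / (b * (b - 1)) := by
    rw [hκ]; field_simp; linear_combination -hrel2
  have hκp : κ ∈ pw p L := by
    apply mem_pw_of_der_eq_zero x0 Dxx
      (div_mem (der_mem_gen Dxx hag) (mul_mem hag (sub_mem hag (one_mem _))))
    apply Dxy
    rw [← hκ, hκ']
    exact div_mem (der_mem_gen Dyy hbg) (mul_mem hbg (sub_mem hbg (one_mem _)))
  have hDa' : Dx a = κ * (a * (a - 1)) := by rw [hκ]; field_simp
  have hDb' : Dy b = κ * (b * (b - 1)) := by rw [hκ']; field_simp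
  obtain ⟨i, hi⟩ : ∃ i : ℕ, κ = i := by
    refine eigen_nat Dxx (u := 1 - a⁻¹) (sub_mem (one_mem _) (inv_mem hag)) ?_ hκp ?_
    · intro e
      apply a1
      field_simp at e
      linear_combination e
    · rw [map_sub, Derivation.map_one_eq_zero, der_inv, hDa']
      field_simp; ring
  rw [hi] at hDa' hDb'
  refine ⟨-(i : ZMod p), ?_, ln_of_riccati x0 Dxx hr r0 (by rw [ha]; field_simp) a0 a1 hDa',
    ln_of_riccati y0 Dyy hq q0 (by rw [hb]; field_simp) b0 b1 hDb'⟩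
  rw [neg_ne_zero, Ne, ZMod.natCast_eq_zero_iff, ← CharP.cast_eq_zero_iff L p]
  intro e
  rw [e, zero_mul] at hDa'
  exact hDa hDa'

end Crest.Agent.R9
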