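import Mathlib

/-!
An additive lift of a collineation (the additive half of the fundamental theorem of projective
geometry, in the form of Faure's elementary argument), over an infinite base field.
-/

set_option autoImplicit false

namespace Crest.Agent.R9

section
variable (k : Type*) {V : Type*} [Field k] [AddCommGroup V] [Module k V]

/-- two independent vectors -/
def Ind2 (x y : V) : Prop := ∀ a b : k, a • x + b • y = 0 → a = 0 ∧ b = 0

/-- three independent vectors -/
def Ind3 (x y z : V) : Prop :=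
  ∀ a b c : k, a • x + b • y + c • z = 0 → a = 0 ∧ b = 0 ∧ c = 0

/-- `z` is outside the span of `x` and `y` -/
def Out (x y z : V) : Prop := ∀ a b : k, z ≠ a • x + b • y

variable {k}

lemma Ind2.symm {x y : V} (h : Ind2 k x y) : Ind2 k y x := fun a b hab =>
  (h b a (by rw [add_comm]; exact hab)).symm

lemma Ind2.left_ne {x y : V} (h : Ind2 k x y) : x ≠ 0 := by
  rintro rfl
  simpa using (h 1 0 (by simp)).1

lemma Ind2.right_ne {x y : V} (h : Ind2 k x y) : y ≠ 0 := h.symm.left_ne

lemma Ind3.swap12 {x y z : V} (h : Ind3 k x y z) : Ind3 k y x z := fun a b c habc => by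
  have := h b a c (by rw [← habc]; abel)
  tauto

lemma Ind3.swap23 {x y z : V} (h : Ind3 k x y z) : Ind3 k x z y := fun a b c habc => by
  have := h a c b (by rw [← habc]; abel)
  tauto

lemma Ind3.ind12 {x y z : V} (h : Ind3 k x y z) : Ind2 k x y := fun a b hab => by
  have := h a b 0 (by simpa using hab)
  tauto

lemma Ind3.ind13 {x y z : V} (h : Ind3 k x y z) : Ind2 k x z := h.swap23.ind12

lemma Ind3.ind23 {x y z : V} (h : Ind3 k x y z) : Ind2 k y z := h.swap12.ind13

lemma Ind3.add12 {x y z : V} (h : Ind3 k x y z) : Ind2 k (x + y) z := fun a b hab => by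
  have := h a a b (by rw [← hab]; module)
  tauto

lemma Ind2.ind3 {x y z : V} (h : Ind2 k x y) (hz : Out k x y z) : Ind3 k x y z := by
  intro a b c habc
  by_cases hc : c = 0
  · subst hc
    have := h a b (by simpa using habc)
    tauto
  · exfalso
    apply hz (-(c⁻¹ * a)) (-(c⁻¹ * b))
    have : z = c⁻¹ • (c • z) := by rw [smul_smul, inv_mul_cancel₀ hc, one_smul]
    rw [this]
    linear_combination (norm := module) c⁻¹ • habc

lemma Out.ind_left {x y z : V} (hz : Out k x y z) (hx : x ≠ 0) : Ind2 k x z := by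
  intro a c hac
  by_cases hc : c = 0
  · subst hc
    have : a • x = 0 := by simpa using hac
    simpa [hx] using this
  · exfalso
    apply hz (-(c⁻¹ * a)) 0
    have : z = c⁻¹ • (c • z) := by rw [smul_smul, inv_mul_cancel₀ hc, one_smul]
    rw [this]
    linear_combination (norm := module) c⁻¹ • hac

lemma Out.symm {x y z : V} (hz : Out k x y z) : Out k y x z := fun a b h =>
  hz b a (by rw [h, add_comm])

lemma Out.ind_right {x y z : V} (hz : Out k x y z) (hy : y ≠ 0) : Ind2 k y z :=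
  hz.symm.ind_left hy

lemma Ind2.add_left {x y : V} (h : Ind2 k x y) : Ind2 k x (x + y) := fun a b hab => by
  have := h (a + b) b (by rw [← hab]; module)
  obtain ⟨h1, h2⟩ := this
  subst h2
  simpa using h1

lemma Ind2.of_not {x y t : V} (hx : x ≠ 0) (hy : y ≠ 0) (h : ¬ Ind2 k x y) (ht : Ind2 k x t) :
    Ind2 k y t ∧ Ind2 k x (y + t) ∧ (x + y ≠ 0 → Ind2 k (x + y) t) := by
  simp only [Ind2, not_forall] at h
  obtain ⟨a, b, hab, hne⟩ := h
  have hb : b ≠ 0 := by
    rintro rfl
    have : a • x = 0 := by simpa using hab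
    simp [hx] at this
    exact hne ⟨this, rfl⟩
  obtain ⟨r, rfl⟩ : ∃ r : k, y = r • x := by
    refine ⟨-(b⁻¹ * a), ?_⟩
    have : y = b⁻¹ • (b • y) := by rw [smul_smul, inv_mul_cancel₀ hb, one_smul]
    rw [this]
    linear_combination (norm := module) b⁻¹ • hab
  have hr : r ≠ 0 := by rintro rfl; simp at hy
  refine ⟨fun u v huv => ?_, fun u v huv => ?_, fun hne u v huv => ?_⟩
  · have := ht (u * r) v (by rw [← huv]; module)
    simpa [hr] using this
  · have := ht (u + v * r) v (by rw [← huv]; module)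
    obtain ⟨h1, h2⟩ := this
    subst h2
    simpa using h1
  · have := ht (u * (1 + r)) v (by rw [← huv]; module)
    obtain ⟨h1, h2⟩ := this
    refine ⟨?_, h2⟩
    rcases mul_eq_zero.1 h1 with h1 | h1
    · exact h1
    · exfalso
      apply hne
      have : x + r • x = (1 + r) • x := by module
      rw [this, h1, zero_smul]

/-- generic choice outside four planes -/
lemma exists_out4 [Infinite k] (hd : ∀ x y : V, ∃ z, Out k x y z) (x₁ y₁ x₂ y₂ x₃ y₃ x₄ y₄ : V) :
    ∃ z, Out k x₁ y₁ z ∧ Out k x₂ y₂ z ∧ Out k x₃ y₃ z ∧ Out k x₄ y₄ z := by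
  classical
  by_contra hcon
  have hout : ∀ x y z : V, Out k x y z ↔ z ∉ Submodule.span k ({x, y} : Set V) := by
    intro x y z
    simp only [Out, Submodule.mem_span_pair, not_exists]
    exact ⟨fun h a b e => h a b e.symm, fun h a b e => h a b e.symm⟩
  have htop : ∀ x y : V, Submodule.span k ({x, y} : Set V) ≠ ⊤ := by
    intro x y e
    obtain ⟨z, hz⟩ := hd x y
    rw [hout, e] at hz
    exact hz Submodule.mem_top
  let s : Finset (Subspace k V) := {Submodule.span k {x₁, y₁}, Submodule.span k {x₂, y₂},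
    Submodule.span k {x₃, y₃}, Submodule.span k {x₄, y₄}}
  have hs : ⊤ ∉ s := by
    simp only [s, Finset.mem_insert, Finset.mem_singleton, not_or]
    exact ⟨(htop _ _).symm, (htop _ _).symm, (htop _ _).symm, (htop _ _).symm⟩
  apply Subspace.biUnion_ne_univ_of_top_notMem hs
  rw [Set.eq_univ_iff_forall]
  intro z
  simp only [not_exists, hout] at hcon
  have := hcon z
  simp only [Set.mem_iUnion, s, Finset.mem_insert, Finset.mem_singleton]
  by_cases h1 : z ∈ Submodule.span k ({x₁, y₁} : Set V)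
  · exact ⟨_, Or.inl rfl, h1⟩
  by_cases h2 : z ∈ Submodule.span k ({x₂, y₂} : Set V)
  · exact ⟨_, Or.inr (Or.inl rfl), h2⟩
  by_cases h3 : z ∈ Submodule.span k ({x₃, y₃} : Set V)
  · exact ⟨_, Or.inr (Or.inr (Or.inl rfl)), h3⟩
  by_cases h4 : z ∈ Submodule.span k ({x₄, y₄} : Set V)
  · exact ⟨_, Or.inr (Or.inr (Or.inr rfl)), h4⟩
  exact absurd ⟨h1, h2, h3, h4⟩ this

end

section
variable {k l V W : Type*} [Field k] [AddCommGroup V] [Module k V]
  [Field l] [AddCommGroup W] [Module l W]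

variable (k l) in
/-- `Rep x X` : the vector `X` represents the image of the point `[x]` under a collineation. -/
structure IsColl (Rep : V → W → Prop) : Prop where
  ex : ∀ x, x ≠ 0 → ∃ X, Rep x X
  smul : ∀ x X (a : l), a ≠ 0 → Rep x X → Rep x (a • X)
  uniq : ∀ x X X', Rep x X → Rep x X' → ∃ a : l, X' = a • X
  neg : ∀ x X, Rep x X → Rep (-x) X
  line : ∀ x y X Y, Ind2 k x y → Rep x X → Rep y Y →
    ∃ a b : l, a ≠ 0 ∧ b ≠ 0 ∧ Rep (x + y) (a • X + b • Y)
  ind2 : ∀ x y X Y, Ind2 k x y → Rep x X → Rep y Y → Ind2 l X Y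
  ind3 : ∀ x y z X Y Z, Ind3 k x y z → Rep x X → Rep y Y → Rep z Z → Ind3 l X Y Z

/-- compatible lifts -/
def Comp (Rep : V → W → Prop) (x : V) (X : W) (y : V) (Y : W) : Prop :=
  Rep x X ∧ Rep y Y ∧ Rep (x + y) (X + Y)

variable {Rep : V → W → Prop}

lemma Comp.symm {x y : V} {X Y : W} (h : Comp Rep x X y Y) : Comp Rep y Y x X :=
  ⟨h.2.1, h.1, by rw [add_comm y, add_comm Y]; exact h.2.2⟩

lemma IsColl.comp_ex (H : IsColl k l Rep) {x y : V} {X : W} (h : Ind2 k x y) (hX : Rep x X) :
    ∃ Y, Comp Rep x X y Y := by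
  obtain ⟨Y, hY⟩ := H.ex y h.right_ne
  obtain ⟨a, b, ha, hb, hab⟩ := H.line x y X Y h hX hY
  refine ⟨(a⁻¹ * b) • Y, hX, H.smul _ _ _ (by simp [ha, hb]) hY, ?_⟩
  have := H.smul _ _ a⁻¹ (by simp [ha]) hab
  rwa [smul_add, smul_smul, smul_smul, inv_mul_cancel₀ ha, one_smul] at this

lemma IsColl.comp_uniq (H : IsColl k l Rep) {x y : V} {X Y Y' : W} (h : Ind2 k x y)
    (h1 : Comp Rep x X y Y) (h2 : Comp Rep x X y Y') : Y' = Y := by
  obtain ⟨c, rfl⟩ := H.uniq _ _ _ h1.2.1 h2.2.1
  obtain ⟨d, hd⟩ := H.uniq _ _ _ h1.2.2 h2.2.2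
  have := H.ind2 _ _ _ _ h h1.1 h1.2.1 (1 - d) (c - d) (by linear_combination (norm := module) hd)
  obtain ⟨e1, e2⟩ := this
  have : c = 1 := by linear_combination e2 - e1
  rw [this, one_smul]

lemma IsColl.comp_three (H : IsColl k l Rep) {x y z : V} {X Y Z : W} (h : Ind3 k x y z)
    (h1 : Comp Rep x X y Y) (h2 : Comp Rep x X z Z) :
    Comp Rep y Y z Z ∧ Comp Rep x X (y + z) (Y + Z) := by
  have hI := H.ind3 _ _ _ _ _ _ h h1.1 h1.2.1 h2.2.1
  have hxyz : Rep (x + (y + z)) (X + (Y + Z)) := by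
    obtain ⟨a, b, ha, hb, hab⟩ := H.line _ _ _ _ h.add12 h1.2.2 h2.2.1
    obtain ⟨a', b', ha', hb', hab'⟩ := H.line _ _ _ _ h.swap23.add12 h2.2.2 h1.2.1
    rw [show x + z + y = x + y + z by abel] at hab'
    obtain ⟨e, he⟩ := H.uniq _ _ _ hab hab'
    obtain ⟨e1, e2, e3⟩ := hI (a' - e * a) (b' - e * a) (a' - e * b)
      (by linear_combination (norm := module) he)
    have he0 : e ≠ 0 := by
      rintro rfl
      exact ha' (by simpa using e1)
    have hab2 : a = b := by
      have : e * (a - b) = 0 := by linear_combination e3 - e1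
      rcases mul_eq_zero.1 this with h0 | h0
      · exact absurd h0 he0
      · exact sub_eq_zero.1 h0
    subst hab2
    have := H.smul _ _ a⁻¹ (by simp [ha]) hab
    rw [smul_add, smul_smul, smul_smul, inv_mul_cancel₀ ha, one_smul, one_smul] at this
    rwa [← add_assoc, ← add_assoc]
  have hyz : Rep (y + z) (Y + Z) := by
    obtain ⟨a, b, ha, hb, hab⟩ := H.line _ _ _ _ h.ind23 h1.2.1 h2.2.1
    have hind : Ind2 k (x + (y + z)) (-x) := by
      intro u v huv
      obtain ⟨e1, e2, _⟩ := h (u - v) u u (by rw [← huv]; module)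
      subst e2
      simpa using e1
    obtain ⟨a', b', ha', hb', hab'⟩ := H.line _ _ _ _ hind hxyz (H.neg _ _ h1.1)
    rw [show x + (y + z) + -x = y + z by abel] at hab'
    obtain ⟨e, he⟩ := H.uniq _ _ _ hab hab'
    obtain ⟨e1, e2, e3⟩ := hI (a' + b') (a' - e * a) (a' - e * b)
      (by linear_combination (norm := module) he)
    have he0 : e ≠ 0 := by
      rintro rfl
      exact ha' (by simpa using e2)
    have hab2 : a = b := by
      have : e * (a - b) = 0 := by linear_combination e3 - e2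
      rcases mul_eq_zero.1 this with h0 | h0
      · exact absurd h0 he0
      · exact sub_eq_zero.1 h0
    subst hab2
    have := H.smul _ _ a⁻¹ (by simp [ha]) hab
    rwa [smul_add, smul_smul, smul_smul, inv_mul_cancel₀ ha, one_smul, one_smul] at this
  exact ⟨⟨h1.2.1, h2.2.1, hyz⟩, ⟨h1.1, hyz, hxyz⟩⟩

/-- The additive lift. -/
theorem IsColl.exists_additive [Infinite k] (H : IsColl k l Rep)
    (hd : ∀ x y : V, ∃ z, Out k x y z) {e : V} {E : W} (he : e ≠ 0) (hE : Rep e E) :
    ∃ f : V →+ W, f e = E ∧ ∀ x, x ≠ 0 → Rep x (f x) := by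
  classical
  -- claim 1
  have c1 : ∀ z Z z' Z', Ind2 k e z → Ind2 k e z' → Ind2 k z z' → Comp Rep e E z Z →
      Comp Rep e E z' Z' → Comp Rep z Z z' Z' := by
    intro z Z z' Z' hz hz' hzz h1 h2
    obtain ⟨t, t1, t2, t3, -⟩ := exists_out4 hd e z e z' z z' z z'
    obtain ⟨T, hT⟩ := H.comp_ex (t1.ind_left he) hE
    have a1 := (H.comp_three (hz.ind3 t1) h1 hT).1
    have a2 := (H.comp_three (hz'.ind3 t2) h2 hT).1
    exact (H.comp_three (hzz.ind3 t3).swap23.swap12 a1.symm a2.symm).1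
  -- existence of good lifts
  have c2 : ∀ x, x ≠ 0 → ∃ X, Rep x X ∧
      ∀ t T, Ind2 k e t → Ind2 k x t → Comp Rep e E t T → Comp Rep x X t T := by
    intro x hx
    obtain ⟨u, hu⟩ := hd e x
    obtain ⟨U, hU⟩ := H.comp_ex (hu.ind_left he) hE
    obtain ⟨X, hX⟩ := H.comp_ex (hu.ind_right hx).symm hU.2.1
    refine ⟨X, hX.2.1, fun t T het hxt hT => ?_⟩
    obtain ⟨s, s1, s2, s3, s4⟩ := exists_out4 hd u x x t e u e t
    obtain ⟨S, hS⟩ := H.comp_ex (s3.ind_left he) hE
    have hu0 : u ≠ 0 := (hu.ind_left he).right_ne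
    have a1 := c1 u U s S (hu.ind_left he) (s3.ind_left he) (s1.ind_left hu0) hU hS
    have a2 := (H.comp_three ((hu.ind_right hx).symm.ind3 s1) hX a1).1
    have a3 := c1 s S t T (s3.ind_left he) het (s4.ind_right het.right_ne).symm hS hT
    exact (H.comp_three (hxt.ind3 s2).swap23.swap12 a2.symm a3).1
  choose! g hg1 hg2 using c2
  let f : V → W := fun x => if x = 0 then 0 else g x
  have hf : ∀ x, x ≠ 0 → f x = g x := fun x hx => by simp [f, hx]
  have hf0 : f 0 = 0 := by simp [f]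
  have c3 : ∀ x y, Ind2 k x y → f (x + y) = f x + f y := by
    intro x y hxy
    have hxy0 : x + y ≠ 0 := hxy.add_left.right_ne
    rw [hf _ hxy0, hf _ hxy.left_ne, hf _ hxy.right_ne]
    obtain ⟨t, t1, t2, -, -⟩ := exists_out4 hd x y e e e e e e
    have het := t2.ind_left he
    obtain ⟨T, hT⟩ := H.comp_ex het hE
    have h3 := hxy.ind3 t1
    have a1 := hg2 x hxy.left_ne t T het h3.ind13 hT
    have a2 := hg2 y hxy.right_ne t T het h3.ind23 hT
    have a3 := (H.comp_three h3.swap23.swap12 a1.symm a2.symm).2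
    have a4 := hg2 (x + y) hxy0 t T het h3.add12 hT
    exact H.comp_uniq h3.add12.symm a3 a4.symm
  have hadd : ∀ x y, f (x + y) = f x + f y := by
    intro x y
    by_cases hx : x = 0
    · simp [hx, hf0]
    by_cases hy : y = 0
    · simp [hy, hf0]
    by_cases hxy : Ind2 k x y
    · exact c3 x y hxy
    obtain ⟨t, ht⟩ := hd x x
    obtain ⟨b1, b2, b3⟩ := Ind2.of_not hx hy hxy (ht.ind_left hx)
    have e1 := c3 _ _ b2
    rw [c3 _ _ b1, ← add_assoc, ← add_assoc] at e1
    by_cases h0 : x + y = 0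
    · rw [h0, zero_add] at e1
      rw [h0, hf0]
      exact (add_eq_right.1 e1.symm).symm
    · rw [c3 _ _ (b3 h0)] at e1
      exact add_right_cancel e1
  refine ⟨AddMonoidHom.mk' f hadd, ?_, fun x hx => ?_⟩
  · change f e = E
    rw [hf e he]
    obtain ⟨t, ht⟩ := hd e e
    have het := ht.ind_left he
    obtain ⟨T, hT⟩ := H.comp_ex het hE
    exact H.comp_uniq het.symm hT.symm (hg2 e he t T het het hT).symm
  · change Rep x (f x)
    rw [hf x hx]
    exact hg1 x hx

/-- Two additive maps inducing the same map on points and agreeing at one point agree. -/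
theorem eq_of_proportional (hd : ∀ x y : V, ∃ z, Out k x y z) (f g : V →+ W) {e : V} (he : e ≠ 0)
    (hfg : g e = f e) (hprop : ∀ x, ∃ a : l, g x = a • f x)
    (hind : ∀ x, Ind2 k e x → Ind2 l (f e) (f x)) : g = f := by
  have h1 : ∀ x, Ind2 k e x → g x = f x := by
    intro x hx
    obtain ⟨a, ha⟩ := hprop x
    obtain ⟨b, hb⟩ := hprop (e + x)
    rw [map_add, map_add, hfg, ha] at hb
    obtain ⟨e1, e2⟩ := hind x hx (1 - b) (a - b) (by linear_combination (norm := module) hb)
    have : a = 1 := by linear_combination e2 - e1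
    rw [ha, this, one_smul]
  ext x
  by_cases hx0 : x = 0
  · simp [hx0]
  by_cases hx : Ind2 k e x
  · exact h1 x hx
  obtain ⟨t, ht⟩ := hd e e
  have het := ht.ind_left he
  obtain ⟨-, b2, -⟩ := Ind2.of_not he hx0 hx het
  have e1 := h1 _ b2
  rw [map_add, map_add, h1 t het] at e1
  exact add_right_cancel e1

end

end Crest.Agent.R9
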