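import Mathlib
import Crest.Agent.R9.Der

/-!
Transcendence degree versus derivations.
-/

set_option autoImplicit false

open Polynomial

namespace Crest.Agent.R9

universe u

lemma isAlgebraic_of_der_eq_zero (E L : Type*) [Field E] [Field L] [Algebra E L]
    [Algebra.EssFiniteType E L] (h : ∀ D : Derivation E L L, D = 0) : Algebra.IsAlgebraic E L := by
  have h1 : Subsingleton (Derivation E L L) := ⟨fun a b => by rw [h a, h b]⟩
  have h2 : Subsingleton (Module.Dual L Ω[L⁄E]) :=
    (KaehlerDifferential.linearMapEquivDerivation E L (M := L)).toEquiv.subsingleton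
  have h3 : Algebra.FormallyUnramified E L := ⟨(Module.subsingleton_dual_iff L).1 h2⟩
  have := Algebra.FormallyUnramified.isSeparable E L
  infer_instance

lemma trdeg_le_of_der (k L : Type u) [Field k] [Field L] [Algebra k L]
    [Algebra.EssFiniteType k L] (s : Set L)
    (h : ∀ D : Der L, (∀ a : k, D (algebraMap k L a) = 0) → (∀ x ∈ s, D x = 0) → ∀ x, D x = 0) :
    Algebra.trdeg k L ≤ Cardinal.mk s := by
  have := Algebra.EssFiniteType.of_comp k (IntermediateField.adjoin k s) L
  have h1 : Algebra.IsAlgebraic (IntermediateField.adjoin k s) L := by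
    apply isAlgebraic_of_der_eq_zero
    intro D
    ext x
    refine h (D.restrictScalars ℤ) (fun a => ?_) (fun x hx => ?_) x
    · exact D.map_algebraMap (algebraMap k _ a)
    · exact D.map_algebraMap ⟨x, IntermediateField.subset_adjoin k s hx⟩
  rw [IntermediateField.isAlgebraic_adjoin_iff_top] at h1
  exact Algebra.IsAlgebraic.trdeg_le_cardinalMk k s

variable {p : ℕ} [hp : Fact p.Prime] {L : Type*} [Field L] [CharP L p]

lemma essFiniteType_of_closure (k : Subfield L)
    (hK : ∃ s : Finset L, Subfield.closure ((k : Set L) ∪ (s : Set L)) = ⊤) :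
    Algebra.EssFiniteType k L := by
  obtain ⟨s, hs⟩ := hK
  rw [← IntermediateField.fg_top_iff]
  refine ⟨s, IntermediateField.toSubfield_injective ?_⟩
  rw [IntermediateField.adjoin_toSubfield, IntermediateField.top_toSubfield, ← hs]
  congr 2
  ext x
  constructor
  · rintro ⟨y, rfl⟩
    exact y.2
  · intro hx
    exact ⟨⟨x, hx⟩, rfl⟩

/-- `L^p(x) ≠ L` in transcendence degree at least two -/
lemma exists_notMem_gen (k : Subfield L) [Algebra.EssFiniteType k L]
    (h2 : 2 ≤ Algebra.trdeg k L) (x : L) : ∃ y, y ∉ gen (pw p L) x := by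
  by_contra hcon
  simp only [not_exists, not_not] at hcon
  have := trdeg_le_of_der k L {x} (fun D _ hx y => der_gen (hx x rfl) (hcon y))
  rw [Cardinal.mk_singleton] at this
  have h3 := h2.trans this
  norm_num at h3

/-- a perfect subfield of a finitely generated extension of an algebraically closed field -/
lemma perfect_le (l P : Subfield L) [IsAlgClosed l] [Algebra.EssFiniteType l L] (hlP : l ≤ P)
    (hP : ∀ a ∈ P, ∃ b ∈ P, b ^ p = a) : P ≤ l := by
  let Q : IntermediateField l L := P.toIntermediateField (fun x => hlP x.2)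
  have hE := Algebra.EssFiniteType.of_comp l Q L
  have hperf : PerfectRing Q p := PerfectRing.ofSurjective Q p (fun a => by
    obtain ⟨b, hb, e⟩ := hP a.1 a.2
    exact ⟨⟨b, hb⟩, Subtype.ext e⟩)
  have hperf' : PerfectField Q := PerfectRing.toPerfectField Q p
  obtain ⟨s, hs, hsep⟩ := exists_isTranscendenceBasis_and_isSeparable_of_perfectField Q L
  have h1 : Algebra.trdeg l L ≤ Cardinal.mk (s : Set L) := by
    apply trdeg_le_of_der
    intro D _ hDs x
    let F := IntermediateField.adjoin Q (s : Set L)
    have hF : ∀ z ∈ F, D z = 0 := by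
      have : F.toSubfield ≤ derKer D := by
        rw [IntermediateField.adjoin_toSubfield, Subfield.closure_le, Set.union_subset_iff]
        refine ⟨?_, hDs⟩
        rintro _ ⟨a, rfl⟩
        obtain ⟨b, -, e⟩ := hP a.1 a.2
        exact der_pw D (mem_pw.2 ⟨b, e⟩)
      exact this
    let D' : Derivation F L L := Derivation.mk'
      { toFun := D
        map_add' := map_add D
        map_smul' := fun a b => by
          change D ((a : L) * b) = (a : L) * D b
          rw [der_mul, hF _ a.2]; simp } (fun a b => D.leibniz a b)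
    have hx := D'.map_aeval (minpoly F x) x
    rw [minpoly.aeval, map_zero] at hx
    have hne := (Algebra.IsSeparable.isSeparable F x).aeval_derivative_ne_zero (minpoly.aeval F x)
    rcases smul_eq_zero.1 hx.symm with h | h
    · exact absurd h hne
    · exact h
  have h2 : Cardinal.mk s = Algebra.trdeg Q L := hs.cardinalMk_eq_trdeg
  have h3 := trdeg_add_eq l Q (A := L)
  have h4 : Algebra.trdeg l Q = 0 := by
    have hfin : Algebra.trdeg Q L < Cardinal.aleph0 := by
      rw [← h2]; exact Cardinal.mk_lt_aleph0
    have h5 : Algebra.trdeg l Q + Algebra.trdeg Q L ≤ 0 + Algebra.trdeg Q L := by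
      rw [h3, zero_add, ← h2]; exact h1
    exact le_zero_iff.1 ((Cardinal.add_le_add_iff_of_lt_aleph0 hfin).1 h5)
  have h6 : Algebra.IsAlgebraic l Q := trdeg_eq_zero_iff.1 h4
  have h7 := IntermediateField.eq_bot_of_isAlgClosed_of_isAlgebraic Q
  intro x hx
  have hx' : x ∈ Q := hx
  rw [h7, IntermediateField.mem_bot] at hx'
  obtain ⟨y, rfl⟩ := hx'
  exact y.2

end Crest.Agent.R9
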