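import Mathlib
import Crest.Agent.R9.Proj
import Crest.Agent.R9.Cls
import Crest.Agent.R9.Trdeg

/-!
From a Steinberg-compatible isomorphism to a collineation, and from there to a field isomorphism.
-/

set_option autoImplicit false

namespace Crest.Agent.R9

variable {p : ℕ} [hp : Fact p.Prime] {K L : Type*} [Field K] [CharP K p] [Field L] [CharP L p]

lemma pair_lemma (Θ : KK K p ≃ₗ[ZMod p] KK L p) (hΘ : ∀ A B, Ln A B → Wd (Θ A) (Θ B))
    {A B A' B' : KK K p} (h : Ln A B) (h' : Ln A' B') {x' y' : L} (hx : c0 p x' = Θ A)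
    (hy : c0 p y' = Θ A') (hx' : x' ∉ pw p L) (hy' : y' ∉ gen (pw p L) x') :
    ∃ c : ZMod p, c ≠ 0 ∧ Ln (c • Θ A) (c • Θ B) ∧ Ln (c • Θ A') (c • Θ B') := by
  have x0 : x' ≠ 0 := by rintro rfl; exact hx' (zero_mem _)
  have y0 : y' ≠ 0 := by rintro rfl; exact hy' (zero_mem _)
  have hA : A ≠ 0 := by
    rintro rfl
    exact hx' ((c0_eq_zero_iff x0).1 (by rw [hx, map_zero]))
  have hA' : A' ≠ 0 := by
    rintro rfl
    exact hy' (le_gen _ _ ((c0_eq_zero_iff y0).1 (by rw [hy, map_zero])))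
  have hAA : A' ≠ A := by
    rintro rfl
    obtain ⟨a, ha, -, e⟩ := (c0_eq_iff y0 x0).1 (hy.trans hx.symm)
    exact hy' (e ▸ mul_mem (le_gen _ _ ha) (self_mem_gen _ _))
  have n1 := h.ne_smul hA
  have n2 := h'.ne_smul hA'
  have w1 := hΘ _ _ h
  have w2 := hΘ _ _ h'
  obtain ⟨x, x0, x1, rfl, rfl⟩ := h
  obtain ⟨y, y0, y1, rfl, rfl⟩ := h'
  have hxy : y - x ≠ 0 := by
    intro e
    exact hAA (by rw [sub_eq_zero.1 e])
  have l3 : Ln (c0 p x - c0 p y) (c0 p (y - x) - c0 p y) := by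
    have e : -(x / y) + 1 = (y - x) / y := by field_simp; ring
    refine ⟨-(x / y), by simp [x0, y0], by rw [e]; exact div_ne_zero hxy y0, ?_, ?_⟩
    · rw [c0_neg, c0_div x0 y0]
    · rw [e, c0_div hxy y0]
  have l4 : Ln (c0 p (x + 1) - c0 p (y + 1)) (c0 p (y - x) - c0 p (y + 1)) := by
    have e : -((x + 1) / (y + 1)) + 1 = (y - x) / (y + 1) := by field_simp; ring
    refine ⟨-((x + 1) / (y + 1)), by simp [x1, y1], by rw [e]; exact div_ne_zero hxy y1, ?_, ?_⟩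
    · rw [c0_neg, c0_div x1 y1]
    · rw [e, c0_div hxy y1]
  have w3 := hΘ _ _ l3
  have w4 := hΘ _ _ l4
  rw [map_sub, map_sub] at w3 w4
  refine bt_config hx hy hx' hy' w1 w2 w3 w4 (fun c e => n1 c ?_) (fun c e => n2 c ?_)
  · exact Θ.injective (by rw [e, map_smul])
  · exact Θ.injective (by rw [e, map_smul])

lemma exists_notMem_two {F₁ F₂ : Subfield L} (h1 : ∃ y, y ∉ F₁) (h2 : ∃ y, y ∉ F₂) :
    ∃ y, y ∉ F₁ ∧ y ∉ F₂ := by
  obtain ⟨y₁, h1⟩ := h1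
  obtain ⟨y₂, h2⟩ := h2
  by_cases a : y₁ ∈ F₂
  · by_cases b : y₂ ∈ F₁
    · refine ⟨y₁ + y₂, fun h => h1 ?_, fun h => h2 ?_⟩
      · simpa using sub_mem h b
      · simpa using sub_mem h a
    · exact ⟨y₂, b, h2⟩
  · exact ⟨y₁, h1, a⟩

lemma exists_ln {A : KK K p} (hA : A ≠ 0) : ∃ B, Ln A B := by
  obtain ⟨x, x0, rfl⟩ := c0_surj A
  refine ⟨_, x, x0, fun e => hA ?_, rfl, rfl⟩
  rw [eq_neg_of_add_eq_zero_left e, c0_neg, c0_one]

theorem exists_c (Θ : KK K p ≃ₗ[ZMod p] KK L p) (hΘ : ∀ A B, Ln A B → Wd (Θ A) (Θ B))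
    (HL : ∀ x : L, ∃ y, y ∉ gen (pw p L) x) :
    ∃ c : ZMod p, c ≠ 0 ∧ ∀ A B, A ≠ 0 → Ln A B → Ln (c • Θ A) (c • Θ B) := by
  have key : ∀ A B A' B' : KK K p, A ≠ 0 → A' ≠ 0 → Ln A B → Ln A' B' →
      ∃ c : ZMod p, c ≠ 0 ∧ Ln (c • Θ A) (c • Θ B) ∧ Ln (c • Θ A') (c • Θ B') := by
    intro A B A' B' hA hA' h h'
    obtain ⟨x, x0, hx⟩ := c0_surj (Θ A)
    obtain ⟨x', x0', hx'⟩ := c0_surj (Θ A')
    have hxp : x ∉ pw p L := fun e => hA (by
      rw [← c0_eq_zero_iff x0, hx] at e; simpa using e)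
    have hxp' : x' ∉ pw p L := fun e => hA' (by
      rw [← c0_eq_zero_iff x0', hx'] at e; simpa using e)
    obtain ⟨y, hy, hy'⟩ := exists_notMem_two (HL x) (HL x')
    have y0 : y ≠ 0 := by rintro rfl; exact hy (zero_mem _)
    have hY : c0 p y ≠ 0 := fun e => hy (le_gen _ _ ((c0_eq_zero_iff y0).1 e))
    obtain ⟨B₀, h₀⟩ := exists_ln (A := Θ.symm (c0 p y)) (by simpa using hY)
    obtain ⟨c, hc, l1, l2⟩ := pair_lemma Θ hΘ h h₀ hx (by simp) hxp hy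
    obtain ⟨d, hd, l3, l4⟩ := pair_lemma Θ hΘ h' h₀ hx' (by simp) hxp' hy'
    have : c = d := Ln.unique (by simpa using hY) hc hd l2 l4
    subst this
    exact ⟨c, hc, l1, l3⟩
  obtain ⟨y, hy⟩ := HL 0
  have y0 : y ≠ 0 := by rintro rfl; exact hy (zero_mem _)
  have hY : c0 p y ≠ 0 := fun e => hy (le_gen _ _ ((c0_eq_zero_iff y0).1 e))
  have hA₀ : Θ.symm (c0 p y) ≠ 0 := by simpa using hY
  obtain ⟨B₀, h₀⟩ := exists_ln hA₀
  obtain ⟨c, hc, l1, -⟩ := key _ _ _ _ hA₀ hA₀ h₀ h₀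
  refine ⟨c, hc, fun A B hA h => ?_⟩
  obtain ⟨d, hd, l2, l3⟩ := key _ _ _ _ hA₀ hA h₀ h
  have : c = d := Ln.unique (by simpa using hY) hc hd l1 l2
  subst this
  exact l3

lemma pw_smul (a : pw p K) (x : K) : a • x = (a : K) * x := rfl

lemma ind2_iff {x y : K} : Ind2 (pw p K) x y ↔ x ≠ 0 ∧ y ≠ 0 ∧ c0 p x ≠ c0 p y := by
  constructor
  · intro h
    refine ⟨h.left_ne, h.right_ne, fun e => ?_⟩
    obtain ⟨a, ha, -, e⟩ := (c0_eq_iff h.left_ne h.right_ne).1 e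
    have := (h 1 (-⟨a, ha⟩) (by rw [pw_smul, pw_smul, e]; simp)).1
    simp at this
  · rintro ⟨x0, y0, h⟩ a b hab
    rw [pw_smul, pw_smul] at hab
    by_cases ha : a = 0
    · subst ha
      refine ⟨rfl, ?_⟩
      have : (b : K) * y = 0 := by simpa using hab
      simpa [y0] using this
    · exfalso
      have ha' : (a : K) ≠ 0 := by simpa using ha
      have hb' : (b : K) ≠ 0 := by
        intro e
        rw [e, zero_mul, add_zero] at hab
        exact mul_ne_zero ha' x0 hab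
      apply h
      rw [← c0_pw_mul a.2 ha' x0, eq_neg_of_add_eq_zero_left hab, c0_neg, c0_pw_mul b.2 hb' y0]

lemma out_of_H (H : ∀ x : K, ∃ y, y ∉ gen (pw p K) x) (x y : K) : ∃ z, Out (pw p K) x y z := by
  have key : ∀ x y : K, x ≠ 0 → ∃ z, Out (pw p K) x y z := by
    intro x y x0
    obtain ⟨t, ht⟩ := H (y / x)
    refine ⟨x * t, fun a b e => ht ?_⟩
    rw [pw_smul, pw_smul] at e
    have : t = a + b * (y / x) := by
      field_simp
      linear_combination e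
    rw [this]
    exact add_mem (le_gen _ _ a.2) (mul_mem (le_gen _ _ b.2) (self_mem_gen _ _))
  by_cases x0 : x = 0
  · by_cases y0 : y = 0
    · subst x0 y0
      exact ⟨1, fun a b e => by simp at e⟩
    · obtain ⟨z, hz⟩ := key y x y0
      exact ⟨z, hz.symm⟩
  · exact key x y x0

/-- a map of classes preserving lines through the unit class sends `[x + y]` into the line -/
lemma line_of_ln (ψ : KK K p ≃+ KK L p) (h1 : ∀ A B, A ≠ 0 → Ln A B → Ln (ψ A) (ψ B))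
    {x y : K} {X Y : L} (x0 : x ≠ 0) (y0 : y ≠ 0) (hxy : c0 p x ≠ c0 p y) (X0 : X ≠ 0)
    (Y0 : Y ≠ 0) (hX : c0 p X = ψ (c0 p x)) (hY : c0 p Y = ψ (c0 p y)) :
    ∃ a ∈ pw p L, a ≠ 0 ∧ a * X + Y ≠ 0 ∧ c0 p (a * X + Y) = ψ (c0 p (x + y)) := by
  have hs : x + y ≠ 0 := by
    intro e
    exact hxy (by rw [eq_neg_of_add_eq_zero_left e, c0_neg])
  have e : x / y + 1 = (x + y) / y := by field_simp
  have l : Ln (c0 p x - c0 p y) (c0 p (x + y) - c0 p y) :=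
    ⟨x / y, div_ne_zero x0 y0, by rw [e]; exact div_ne_zero hs y0, c0_div x0 y0,
      by rw [e, c0_div hs y0]⟩
  obtain ⟨t, t0, t1, e1, e2⟩ := h1 _ _ (sub_ne_zero.2 hxy) l
  rw [map_sub, ← hX, ← hY, ← c0_div X0 Y0] at e1
  obtain ⟨a, ha, a0, rfl⟩ := (c0_eq_iff t0 (div_ne_zero X0 Y0)).1 e1
  have e3 : a * X + Y = (a * (X / Y) + 1) * Y := by field_simp
  refine ⟨a, ha, a0, by rw [e3]; exact mul_ne_zero t1 Y0, ?_⟩
  rw [e3, c0_mul t1 Y0, e2, map_sub, hY, sub_add_cancel]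

lemma isColl_of_ln (ψ : KK K p ≃+ KK L p) (h1 : ∀ A B, A ≠ 0 → Ln A B → Ln (ψ A) (ψ B))
    (h2 : ∀ A B, A ≠ 0 → Ln A B → Ln (ψ.symm A) (ψ.symm B)) :
    IsColl (pw p K) (pw p L) (fun (x : K) (X : L) => x ≠ 0 ∧ X ≠ 0 ∧ c0 p X = ψ (c0 p x)) := by
  have hind2 : ∀ (x y : K) (X Y : L), Ind2 (pw p K) x y → (x ≠ 0 ∧ X ≠ 0 ∧ c0 p X = ψ (c0 p x)) →
      (y ≠ 0 ∧ Y ≠ 0 ∧ c0 p Y = ψ (c0 p y)) → Ind2 (pw p L) X Y := by
    rintro x y X Y h ⟨-, X0, hX⟩ ⟨-, Y0, hY⟩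
    rw [ind2_iff] at h ⊢
    exact ⟨X0, Y0, by rw [hX, hY]; exact fun e => h.2.2 (ψ.injective e)⟩
  refine ⟨fun x x0 => ?_, ?_, ?_, ?_, ?_, hind2, ?_⟩
  · obtain ⟨X, X0, hX⟩ := c0_surj (ψ (c0 p x))
    exact ⟨X, x0, X0, hX⟩
  · rintro x X a a0 ⟨x0, X0, hX⟩
    have a0' : (a : L) ≠ 0 := by simpa using a0
    exact ⟨x0, by rw [pw_smul]; exact mul_ne_zero a0' X0, by rw [pw_smul, c0_pw_mul a.2 a0' X0, hX]⟩
  · rintro x X X' ⟨x0, X0, hX⟩ ⟨-, X0', hX'⟩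
    obtain ⟨a, ha, -, e⟩ := (c0_eq_iff X0' X0).1 (hX'.trans hX.symm)
    exact ⟨⟨a, ha⟩, e⟩
  · rintro x X ⟨x0, X0, hX⟩
    exact ⟨neg_ne_zero.2 x0, X0, by rw [c0_neg, hX]⟩
  · rintro x y X Y h ⟨x0, X0, hX⟩ ⟨y0, Y0, hY⟩
    obtain ⟨a, ha, a0, e1, e2⟩ := line_of_ln ψ h1 x0 y0 (ind2_iff.1 h).2.2 X0 Y0 hX hY
    refine ⟨⟨a, ha⟩, 1, fun e => a0 (congrArg Subtype.val e), one_ne_zero, h.add_left.right_ne, ?_, ?_⟩
    · rwa [pw_smul, one_smul]
    · rwa [pw_smul, one_smul]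
  · rintro x y z X Y Z h hx hy hz a b c habc
    have i12 := hind2 _ _ _ _ h.ind12 hx hy
    have i13 := hind2 _ _ _ _ h.ind13 hx hz
    have i23 := hind2 _ _ _ _ h.ind23 hy hz
    by_cases hc : c = 0
    · subst hc
      have := i12 a b (by simpa using habc)
      tauto
    by_cases hb : b = 0
    · subst hb
      have := i13 a c (by simpa using habc)
      tauto
    by_cases ha : a = 0
    · subst ha
      have := i23 b c (by simpa using habc)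
      tauto
    exfalso
    obtain ⟨x0, X0, hX⟩ := hx
    obtain ⟨y0, Y0, hY⟩ := hy
    obtain ⟨z0, Z0, hZ⟩ := hz
    have ha' : (a : L) ≠ 0 := by simpa using ha
    have hb' : (b : L) ≠ 0 := by simpa using hb
    have hc' : (c : L) ≠ 0 := by simpa using hc
    rw [pw_smul, pw_smul, pw_smul] at habc
    obtain ⟨u, hu, u0, e1, e2⟩ := line_of_ln ψ.symm h2 (mul_ne_zero ha' X0) (mul_ne_zero hb' Y0)
      (by rw [c0_pw_mul a.2 ha' X0, c0_pw_mul b.2 hb' Y0]; exact (ind2_iff.1 i12).2.2) x0 y0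
      (by rw [c0_pw_mul a.2 ha' X0, hX]; simp) (by rw [c0_pw_mul b.2 hb' Y0, hY]; simp)
    rw [eq_neg_of_add_eq_zero_left habc, c0_neg, c0_pw_mul c.2 hc' Z0, hZ,
      AddEquiv.symm_apply_apply] at e2
    obtain ⟨v, hv, v0, e3⟩ := (c0_eq_iff e1 z0).1 e2
    have := (h ⟨u, hu⟩ 1 (-⟨v, hv⟩) (by
      rw [pw_smul, pw_smul, pw_smul]; simp [e3])).2.1
    simp at this

lemma addHom_eq_of_c0 (hd : ∀ x y : K, ∃ z, Out (pw p K) x y z) (f g : K →+ L) (h1 : g 1 = f 1)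
    (hf0 : ∀ x, x ≠ 0 → f x ≠ 0) (hg0 : ∀ x, x ≠ 0 → g x ≠ 0)
    (h : ∀ x, x ≠ 0 → c0 p (g x) = c0 p (f x))
    (hinj : ∀ x, x ≠ 0 → c0 p (f 1) = c0 p (f x) → c0 p x = 0) : g = f := by
  refine eq_of_proportional (k := pw p K) (l := pw p L) hd f g one_ne_zero h1 (fun x => ?_)
    (fun x hx => ?_)
  · by_cases x0 : x = 0
    · exact ⟨0, by simp [x0]⟩
    obtain ⟨a, ha, -, e⟩ := (c0_eq_iff (hg0 x x0) (hf0 x x0)).1 (h x x0)
    exact ⟨⟨a, ha⟩, e⟩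
  · rw [ind2_iff] at hx ⊢
    refine ⟨hf0 _ hx.1, hf0 _ hx.2.1, fun e => hx.2.2 ?_⟩
    rw [c0_one, hinj x hx.2.1 e]

theorem exists_ringHom [Infinite (pw p K)] (hd : ∀ x y : K, ∃ z, Out (pw p K) x y z)
    (ψ : KK K p ≃+ KK L p) (h1 : ∀ A B, A ≠ 0 → Ln A B → Ln (ψ A) (ψ B))
    (h2 : ∀ A B, A ≠ 0 → Ln A B → Ln (ψ.symm A) (ψ.symm B)) :
    ∃ f : K →+* L, ∀ x, x ≠ 0 → c0 p (f x) = ψ (c0 p x) := by
  obtain ⟨f, f1, hf⟩ := (isColl_of_ln ψ h1 h2).exists_additive hd (e := 1) (E := 1) one_ne_zero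
    ⟨one_ne_zero, one_ne_zero, by rw [c0_one, c0_one, map_zero]⟩
  have hmul : ∀ x y, f (x * y) = f x * f y := by
    intro x y
    by_cases y0 : y = 0
    · simp [y0]
    have := addHom_eq_of_c0 hd ((AddMonoidHom.mulRight (f y)).comp f)
      (f.comp (AddMonoidHom.mulRight y)) (by simp [f1])
      (fun x x0 => mul_ne_zero (hf x x0).2.1 (hf y y0).2.1)
      (fun x x0 => (hf _ (mul_ne_zero x0 y0)).2.1)
      (fun x x0 => by
        change c0 p (f (x * y)) = c0 p (f x * f y)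
        rw [(hf _ (mul_ne_zero x0 y0)).2.2, c0_mul (hf x x0).2.1 (hf y y0).2.1, c0_mul x0 y0,
          map_add, (hf x x0).2.2, (hf y y0).2.2])
      (fun x x0 e => by
        change c0 p (f 1 * f y) = c0 p (f x * f y) at e
        rw [f1, one_mul, c0_mul (hf x x0).2.1 (hf y y0).2.1, (hf x x0).2.2] at e
        simpa using e)
    exact DFunLike.congr_fun this x
  exact ⟨{ f with map_one' := f1, map_mul' := hmul }, fun x x0 => (hf x x0).2.2⟩

lemma ringHom_eq_of_c0 (hd : ∀ x y : K, ∃ z, Out (pw p K) x y z) (f g : K →+* L)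
    (h : ∀ x, x ≠ 0 → c0 p (g x) = c0 p (f x))
    (hinj : ∀ x, x ≠ 0 → c0 p (f x) = 0 → c0 p x = 0) : g = f := by
  have := addHom_eq_of_c0 hd f.toAddMonoidHom g.toAddMonoidHom (by simp)
    (fun x x0 => by simpa using x0) (fun x x0 => by simpa using x0) h
    (fun x x0 e => hinj x x0 (by
      have e' : c0 p (f 1) = c0 p (f x) := e
      rw [← e', map_one, c0_one]))
  ext x
  exact DFunLike.congr_fun this x

lemma infinite_pw (H : ∀ x : K, ∃ y, y ∉ gen (pw p K) x) : Infinite (pw p K) := by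
  by_contra hfin
  rw [not_infinite_iff_finite] at hfin
  have : Finite K := Finite.of_injective
    (fun x : K => (⟨x ^ p, pow_mem_pw x⟩ : pw p K))
    (fun x y e => frobenius_inj K p (congrArg Subtype.val e))
  obtain ⟨y, hy⟩ := H 0
  obtain ⟨z, hz⟩ := Finite.surjective_of_injective (frobenius_inj K p) y
  exact hy (le_gen _ _ (mem_pw.2 ⟨z, hz⟩))

theorem exists_ringEquiv (HK : ∀ x : K, ∃ y, y ∉ gen (pw p K) x)
    (HL : ∀ x : L, ∃ y, y ∉ gen (pw p L) x) (Θ : KK K p ≃ₗ[ZMod p] KK L p)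
    (hΘ : ∀ A B, Ln A B → Wd (Θ A) (Θ B)) (hΘ' : ∀ A B, Ln A B → Wd (Θ.symm A) (Θ.symm B)) :
    ∃ α : K ≃+* L, ∃ c : ZMod p, c ≠ 0 ∧ ∀ x, x ≠ 0 → Θ (c0 p x) = c • c0 p (α x) := by
  obtain ⟨c, hc, h1⟩ := exists_c Θ hΘ HL
  obtain ⟨d, hd, h2⟩ := exists_c Θ.symm hΘ' HK
  have hdc : d * c = 1 := by
    obtain ⟨y, hy⟩ := HK 0
    have y0 : y ≠ 0 := by rintro rfl; exact hy (zero_mem _)
    have hY : c0 p y ≠ 0 := fun e => hy (le_gen _ _ ((c0_eq_zero_iff y0).1 e))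
    obtain ⟨B, hB⟩ := exists_ln hY
    have := h2 _ _ (by simp [hc, hY]) (h1 _ _ hY hB)
    simp only [map_smul, LinearEquiv.symm_apply_apply, smul_smul] at this
    exact Ln.unique hY (mul_ne_zero hd hc) one_ne_zero this (by simpa using hB)
  let ψ : KK K p ≃+ KK L p :=
    { toFun := fun A => c • Θ A
      invFun := fun B => d • Θ.symm B
      left_inv := fun A => by simp [smul_smul, hdc]
      right_inv := fun B => by simp [smul_smul, mul_comm c d, hdc]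
      map_add' := fun A B => by simp }
  have := infinite_pw HK
  have := infinite_pw HL
  obtain ⟨f, hf⟩ := exists_ringHom (out_of_H HK) ψ h1 h2
  obtain ⟨g, hg⟩ := exists_ringHom (out_of_H HL) ψ.symm h2 h1
  have e1 : g.comp f = RingHom.id K := ringHom_eq_of_c0 (out_of_H HK) _ _
    (fun x x0 => by
      rw [RingHom.comp_apply, hg _ (by simpa using x0), hf x x0]; simp) (fun x _ e => e)
  have e2 : f.comp g = RingHom.id L := ringHom_eq_of_c0 (out_of_H HL) _ _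
    (fun x x0 => by
      rw [RingHom.comp_apply, hf _ (by simpa using x0), hg x x0]; simp) (fun x _ e => e)
  refine ⟨RingEquiv.ofRingHom f g e2 e1, d, hd, fun x x0 => ?_⟩
  change _ = d • c0 p (f x)
  rw [hf x x0]
  change _ = d • c • Θ (c0 p x)
  rw [smul_smul, hdc, one_smul]

theorem ringEquiv_unique (HK : ∀ x : K, ∃ y, y ∉ gen (pw p K) x) (Θ : KK K p ≃ₗ[ZMod p] KK L p)
    (α β : K ≃+* L) {c d : ZMod p} (hc : c ≠ 0) (hd : d ≠ 0)
    (hα : ∀ x, x ≠ 0 → Θ (c0 p x) = c • c0 p (α x))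
    (hβ : ∀ x, x ≠ 0 → Θ (c0 p x) = d • c0 p (β x)) : α = β := by
  have key : ∀ (α : K ≃+* L) (c : ZMod p), c ≠ 0 →
      (∀ x, x ≠ 0 → Θ (c0 p x) = c • c0 p (α x)) → ∀ A B, Ln A B → Ln (c⁻¹ • Θ A) (c⁻¹ • Θ B) := by
    rintro α c hc hα _ _ ⟨a, a0, a1, rfl, rfl⟩
    rw [hα _ a0, hα _ a1, smul_smul, smul_smul, inv_mul_cancel₀ hc, one_smul, one_smul]
    refine ⟨α a, by simpa using a0, ?_, rfl, by simp⟩
    rw [← map_one α, ← map_add]
    simpa only [ne_eq, EmbeddingLike.map_eq_zero_iff] using a1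
  obtain ⟨y, hy⟩ := HK 0
  have y0 : y ≠ 0 := by rintro rfl; exact hy (zero_mem _)
  have hY : c0 p y ≠ 0 := fun e => hy (le_gen _ _ ((c0_eq_zero_iff y0).1 e))
  obtain ⟨B, hB⟩ := exists_ln hY
  have hcd : c = d := inv_injective (Ln.unique (X := Θ (c0 p y)) (by simpa using hY)
    (inv_ne_zero hc) (inv_ne_zero hd) (key α c hc hα _ _ hB) (key β d hd hβ _ _ hB))
  subst hcd
  have := ringHom_eq_of_c0 (out_of_H HK) β.toRingHom α.toRingHom
    (fun x x0 => smul_right_injective _ hc ((hα x x0).symm.trans (hβ x x0)))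
    (fun x x0 e => by
      have e' : c0 p (β x) = 0 := e
      have := hβ x x0
      rw [e', smul_zero] at this
      simpa using this)
  ext x
  exact DFunLike.congr_fun this x

omit hp [CharP K p] [CharP L p] in
/-- a ring isomorphism carries the constants into the constants -/
lemma map_le_of_isAlgClosed (p : ℕ) [hp : Fact p.Prime] [CharP L p] (k : Subfield K) (l : Subfield L) [IsAlgClosed k] [IsAlgClosed l]
    [Algebra.EssFiniteType l L] (f : K →+* L) : k.map f ≤ l := by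
  let P : Subfield L := k.map f ⊔ l
  have hP : ∀ a ∈ P, ∃ b ∈ P, b ^ p = a := by
    have : P ≤ P.map (frobenius L p) := by
      apply sup_le
      · rintro _ ⟨x, hx, rfl⟩
        obtain ⟨z, hz⟩ := IsAlgClosed.exists_pow_nat_eq (⟨x, hx⟩ : k) hp.out.pos
        refine ⟨f z, (le_sup_left : k.map f ≤ P) ⟨z, z.2, rfl⟩, ?_⟩
        rw [frobenius_def, ← map_pow]
        exact congrArg (fun t : k => f t) hz
      · intro x hx
        obtain ⟨z, hz⟩ := IsAlgClosed.exists_pow_nat_eq (⟨x, hx⟩ : l) hp.out.pos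
        exact ⟨z, (le_sup_right : l ≤ P) z.2, congrArg Subtype.val hz⟩
    intro a ha
    exact this ha
  exact le_sup_left.trans (perfect_le l P le_sup_right hP)

end Crest.Agent.R9
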